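import Mathlib
import Vale.Agent.H9.CK.Base
import Vale.Agent.H9.CK.Semi

/-!
# P322: the function `f2` (parametrised by `w`), its Legendre form and its perspective

`eta w = log (2 cosh w) - w tanh w = H (tanh w)`, `qf w = 2 log cosh w - w tanh w`,
`f2 (eta w) = qf w` for `w ≥ 0`, `f2 y = 0` for `y ≥ log 2`.
-/

open Real Set

namespace CK

noncomputable def eta (w : ℝ) : ℝ := log (2 * cosh w) - w * tanh w

noncomputable def qf (w : ℝ) : ℝ := 2 * log (cosh w) - w * tanh w

/-- Minus the slope of `f2` at `eta w`. -/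
noncomputable def Sw (w : ℝ) : ℝ := if w = 0 then 0 else sinh (2 * w) / (2 * w) - 1

/-- The Legendre partner: `f2 y - y f2' y` at `y = eta w`. -/
noncomputable def Gw (w : ℝ) : ℝ := qf w + Sw w * eta w

theorem tanh_hasDerivAt (w : ℝ) : HasDerivAt tanh (1 / cosh w ^ 2) w := by
  have h : tanh = fun x => sinh x / cosh x := by
    funext x; exact tanh_eq_sinh_div_cosh x
  rw [h]
  have hc : cosh w ≠ 0 := (cosh_pos w).ne'
  have := (hasDerivAt_sinh w).div (hasDerivAt_cosh w) hc
  refine this.congr_deriv ?_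
  have h2 := cosh_sq w
  congr 1
  nlinarith

theorem eta_hasDerivAt (w : ℝ) : HasDerivAt eta (-(w / cosh w ^ 2)) w := by
  have hc : cosh w ≠ 0 := (cosh_pos w).ne'
  have h1 : HasDerivAt (fun x => log (2 * cosh x)) (2 * sinh w / (2 * cosh w)) w := by
    have := ((hasDerivAt_cosh w).const_mul 2).log (by positivity)
    exact this
  have h2 : HasDerivAt (fun x => x * tanh x) (1 * tanh w + w * (1 / cosh w ^ 2)) w :=
    (hasDerivAt_id w).mul (tanh_hasDerivAt w)
  have := h1.sub h2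
  refine this.congr_deriv ?_
  rw [tanh_eq_sinh_div_cosh]
  field_simp
  ring

theorem qf_hasDerivAt (w : ℝ) :
    HasDerivAt qf ((sinh w * cosh w - w) / cosh w ^ 2) w := by
  have hc : cosh w ≠ 0 := (cosh_pos w).ne'
  have h1 : HasDerivAt (fun x => 2 * log (cosh x)) (2 * (sinh w / cosh w)) w := by
    have := ((hasDerivAt_cosh w).log hc).const_mul 2
    exact this
  have h2 : HasDerivAt (fun x => x * tanh x) (1 * tanh w + w * (1 / cosh w ^ 2)) w :=
    (hasDerivAt_id w).mul (tanh_hasDerivAt w)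
  have := h1.sub h2
  refine this.congr_deriv ?_
  rw [tanh_eq_sinh_div_cosh]
  field_simp
  ring

theorem eta_zero : eta 0 = log 2 := by simp [eta]

theorem qf_zero : qf 0 = 0 := by simp [qf]

theorem Sw_zero : Sw 0 = 0 := by simp [Sw]

theorem Gw_zero : Gw 0 = 0 := by simp [Gw, qf_zero, Sw_zero]

theorem eta_strictAntiOn : StrictAntiOn eta (Ici 0) := by
  refine strictAntiOn_of_deriv_neg (convex_Ici 0)
    (fun x _ => (eta_hasDerivAt x).continuousAt.continuousWithinAt) ?_
  intro x hx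
  rw [interior_Ici] at hx
  rw [(eta_hasDerivAt x).deriv]
  have : 0 < x := hx
  have hc := cosh_pos x
  have : 0 < x / cosh x ^ 2 := by positivity
  linarith

/-- The link with `H` and `A`. -/
theorem A_tanh (w : ℝ) : A (tanh w) = w := by
  unfold A
  have hc : cosh w ≠ 0 := (cosh_pos w).ne'
  have h1 : 1 + tanh w = exp w / cosh w := by
    rw [tanh_eq_sinh_div_cosh]; field_simp; rw [cosh_add_sinh]
  have h2 : 1 - tanh w = exp (-w) / cosh w := by
    rw [tanh_eq_sinh_div_cosh]; field_simp; rw [cosh_sub_sinh]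
  rw [h1, h2, log_div (exp_pos _).ne' hc, log_div (exp_pos _).ne' hc, log_exp, log_exp]
  ring

theorem tanh_mem (w : ℝ) : tanh w ∈ Ioo (-1 : ℝ) 1 := by
  have hc := cosh_pos w
  have h1 : 1 + tanh w = exp w / cosh w := by
    rw [tanh_eq_sinh_div_cosh]; field_simp; rw [cosh_add_sinh]
  have h2 : 1 - tanh w = exp (-w) / cosh w := by
    rw [tanh_eq_sinh_div_cosh]; field_simp; rw [cosh_sub_sinh]
  have h3 : 0 < exp w / cosh w := by positivity
  have h4 : 0 < exp (-w) / cosh w := by positivity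
  constructor <;> linarith

theorem H_tanh (w : ℝ) : H (tanh w) = eta w := by
  unfold H eta binEntropy
  have hc : cosh w ≠ 0 := (cosh_pos w).ne'
  have h1 : (1 + tanh w) / 2 = exp w / (2 * cosh w) := by
    rw [tanh_eq_sinh_div_cosh]; field_simp; rw [cosh_add_sinh]
  have h2 : 1 - (1 + tanh w) / 2 = exp (-w) / (2 * cosh w) := by
    rw [tanh_eq_sinh_div_cosh]; field_simp; rw [← cosh_sub_sinh]; ring
  have h3 : tanh w = (exp w - exp (-w)) / (2 * cosh w) := by
    rw [tanh_eq_sinh_div_cosh, sinh_eq]; field_simp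
  have h4 : exp w + exp (-w) = 2 * cosh w := by rw [cosh_eq]; ring
  rw [h2, h1]
  rw [log_inv, log_inv, log_div (exp_pos _).ne' (by positivity), log_exp,
    log_div (exp_pos _).ne' (by positivity), log_exp, h3]
  have h5 : exp w = 2 * cosh w - exp (-w) := by linarith
  field_simp
  rw [h5]
  ring

theorem exists_tanh {t : ℝ} (h0 : t ∈ Ioo (-1 : ℝ) 1) : tanh (A t) = t := by
  have h1 : 0 < 1 + t := by linarith [h0.1]
  have h2 : 0 < 1 - t := by linarith [h0.2]
  have hA : A t = log ((1 + t) / (1 - t)) / 2 := by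
    unfold A; rw [log_div h1.ne' h2.ne']
  have hE : exp (2 * A t) = (1 + t) / (1 - t) := by
    rw [hA, mul_div_cancel₀ _ (two_ne_zero), exp_log (by positivity)]
  rw [tanh_eq_sinh_div_cosh, sinh_eq, cosh_eq]
  have he : exp (-A t) ≠ 0 := (exp_pos _).ne'
  have h3 : exp (A t) = exp (2 * A t) * exp (-A t) := by rw [← exp_add]; ring_nf
  have hp : 0 < exp (-A t) := exp_pos _
  rw [h3, hE]
  field_simp
  ring

theorem eta_pos (w : ℝ) : 0 < eta w := by
  rw [← H_tanh]; exact H_pos (tanh_mem w)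

theorem eta_le (w : ℝ) : eta w ≤ log 2 := by
  rw [← H_tanh]; exact H_le _

theorem A_nonneg {t : ℝ} (h0 : 0 ≤ t) (h1 : t < 1) : 0 ≤ A t := by
  rcases h0.eq_or_lt with h | h
  · rw [← h]; simp [A]
  · exact (A_pos h h1).le

theorem H_zero' : H 0 = log 2 := by
  unfold H
  rw [add_zero, one_div, binEntropy_two_inv]

/-- every value in `(0, log 2]` is attained. -/
theorem eta_surj {y : ℝ} (h0 : 0 < y) (h1 : y ≤ log 2) : ∃ w, 0 ≤ w ∧ eta w = y := by
  -- use `H` on `[0,1]`
  have hcont : ContinuousOn H (Icc 0 1) := continuous_H.continuousOn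
  have hiv := intermediate_value_Icc' (zero_le_one' ℝ) hcont
  have hH0 : H 0 = log 2 := H_zero'
  rw [H_one, hH0] at hiv
  obtain ⟨t, ht, hty⟩ := hiv ⟨h0.le, h1⟩
  have ht1 : t < 1 := by
    rcases ht.2.eq_or_lt with h | h
    · rw [h, H_one] at hty; linarith
    · exact h
  refine ⟨A t, A_nonneg ht.1 ht1, ?_⟩
  rw [← H_tanh, exists_tanh ⟨by linarith [ht.1], ht1⟩, hty]

/-- The inverse of `eta` on `[0,∞)`. -/
noncomputable def winv (y : ℝ) : ℝ :=
  open Classical in if h : ∃ w, 0 ≤ w ∧ eta w = y then h.choose else 0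

noncomputable def f2 (y : ℝ) : ℝ := qf (winv y)

theorem winv_nonneg (y : ℝ) : 0 ≤ winv y := by
  unfold winv; split_ifs with h
  · exact h.choose_spec.1
  · exact le_rfl

theorem winv_eta {w : ℝ} (hw : 0 ≤ w) : winv (eta w) = w := by
  unfold winv
  have h : ∃ v, 0 ≤ v ∧ eta v = eta w := ⟨w, hw, rfl⟩
  rw [dif_pos h]
  exact eta_strictAntiOn.injOn h.choose_spec.1 hw h.choose_spec.2

theorem eta_winv {y : ℝ} (h0 : 0 < y) (h1 : y ≤ log 2) : eta (winv y) = y := by
  obtain ⟨w, hw, rfl⟩ := eta_surj h0 h1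
  rw [winv_eta hw]

theorem winv_of_ge {y : ℝ} (h : log 2 ≤ y) : winv y = 0 := by
  unfold winv; split_ifs with h'
  · have h1 := h'.choose_spec.2
    have h2 := eta_le h'.choose
    have h3 : eta h'.choose = eta 0 := by rw [eta_zero]; linarith
    exact eta_strictAntiOn.injOn h'.choose_spec.1 (by simp) h3
  · rfl

theorem f2_eta {w : ℝ} (hw : 0 ≤ w) : f2 (eta w) = qf w := by
  unfold f2; rw [winv_eta hw]

theorem f2_of_ge {y : ℝ} (h : log 2 ≤ y) : f2 y = 0 := by
  unfold f2; rw [winv_of_ge h, qf_zero]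

/-! ### monotonicity of `Sw` -/

theorem sinh_div_mono {a b : ℝ} (ha : 0 < a) (hab : a ≤ b) : sinh a / a ≤ sinh b / b := by
  have hb : 0 < b := lt_of_lt_of_le ha hab
  have hconv : ConvexOn ℝ (Ici 0) sinh := by
    refine convexOn_of_deriv2_nonneg (convex_Ici 0) continuous_sinh.continuousOn
      differentiable_sinh.differentiableOn ?_ ?_
    · rw [Real.deriv_sinh]; exact differentiable_cosh.differentiableOn
    · intro x hx
      rw [interior_Ici] at hx
      simp only [Function.iterate_succ, Function.iterate_zero, Function.comp, id]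
      rw [Real.deriv_sinh, Real.deriv_cosh]
      exact (sinh_nonneg_iff.2 (le_of_lt hx))
  have := hconv.secant_mono (a := 0) (x := a) (y := b) (by simp) (by simpa using ha.le)
    (by simpa using hb.le) ha.ne' hb.ne' hab
  simpa using this

theorem one_le_sinh_div {a : ℝ} (ha : 0 < a) : 1 ≤ sinh a / a := by
  rw [le_div_iff₀ ha, one_mul]
  exact self_le_sinh_iff.2 ha.le

theorem Sw_nonneg {w : ℝ} (hw : 0 ≤ w) : 0 ≤ Sw w := by
  unfold Sw; split_ifs with h
  · exact le_rfl
  · have : 0 < 2 * w := by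
      have := lt_of_le_of_ne hw (Ne.symm h); linarith
    have := one_le_sinh_div this
    linarith

theorem Sw_mono {a b : ℝ} (ha : 0 ≤ a) (hab : a ≤ b) : Sw a ≤ Sw b := by
  rcases ha.eq_or_lt with h | h
  · rw [← h, Sw_zero]; exact Sw_nonneg (ha.trans hab)
  · have hb : 0 < b := lt_of_lt_of_le h hab
    unfold Sw
    rw [if_neg h.ne', if_neg hb.ne']
    have := sinh_div_mono (a := 2 * a) (b := 2 * b) (by linarith) (by linarith)
    linarith

theorem Sw_mul {w : ℝ} : Sw w * w = sinh w * cosh w - w := by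
  unfold Sw; split_ifs with h
  · rw [h]; simp
  · rw [sinh_two_mul]; field_simp

/-! ### tangent lines -/

theorem psi_hasDerivAt (w0 w : ℝ) :
    HasDerivAt (fun x => qf x + Sw w0 * eta x) ((w / cosh w ^ 2) * (Sw w - Sw w0)) w := by
  have := (qf_hasDerivAt w).add ((eta_hasDerivAt w).const_mul (Sw w0))
  refine this.congr_deriv ?_
  rw [← Sw_mul (w := w)]
  ring

/-- the tangent line inequality on the curve. -/
theorem tangent_curve {w0 w : ℝ} (h0 : 0 ≤ w0) (hw : 0 ≤ w) :
    Gw w0 ≤ qf w + Sw w0 * eta w := by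
  unfold Gw
  have hd := psi_hasDerivAt w0
  rcases le_total w w0 with h | h
  · have : AntitoneOn (fun x => qf x + Sw w0 * eta x) (Icc 0 w0) := by
      refine antitoneOn_of_deriv_nonpos (convex_Icc 0 w0)
        (fun x _ => (hd x).continuousAt.continuousWithinAt)
        (fun x _ => (hd x).differentiableAt.differentiableWithinAt) ?_
      intro x hx
      rw [interior_Icc] at hx
      rw [(hd x).deriv]
      have h1 := Sw_mono hx.1.le hx.2.le
      have h2 : 0 ≤ x / cosh x ^ 2 := div_nonneg hx.1.le (by positivity)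
      nlinarith
    exact this ⟨hw, h⟩ ⟨h0, le_rfl⟩ h
  · have : MonotoneOn (fun x => qf x + Sw w0 * eta x) (Ici w0) := by
      refine monotoneOn_of_deriv_nonneg (convex_Ici w0)
        (fun x _ => (hd x).continuousAt.continuousWithinAt)
        (fun x _ => (hd x).differentiableAt.differentiableWithinAt) ?_
      intro x hx
      rw [interior_Ici] at hx
      rw [(hd x).deriv]
      have hx' : w0 < x := hx
      have h1 := Sw_mono h0 hx'.le
      have h2 : 0 ≤ x / cosh x ^ 2 := div_nonneg (h0.trans hx'.le) (by positivity)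
      nlinarith
    exact this (by simp) (by simpa using h) h

theorem f2_tangent {w0 y : ℝ} (h0 : 0 ≤ w0) (hy : 0 < y) : Gw w0 - Sw w0 * y ≤ f2 y := by
  rcases le_total y (log 2) with h | h
  · obtain ⟨w, hw, rfl⟩ := eta_surj hy h
    rw [f2_eta hw]
    have := tangent_curve h0 hw
    linarith
  · rw [f2_of_ge h]
    have h1 := tangent_curve h0 (le_refl (0 : ℝ))
    rw [qf_zero, eta_zero] at h1
    have h2 := Sw_nonneg h0
    nlinarith

theorem f2_nonneg {y : ℝ} (hy : 0 < y) : 0 ≤ f2 y := by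
  have := f2_tangent (le_refl (0 : ℝ)) hy
  rw [Gw_zero, Sw_zero] at this
  linarith

theorem qf_nonneg {w : ℝ} (hw : 0 ≤ w) : 0 ≤ qf w := by
  rw [← f2_eta hw]; exact f2_nonneg (eta_pos w)

theorem Gw_nonneg {w : ℝ} (hw : 0 ≤ w) : 0 ≤ Gw w :=
  add_nonneg (qf_nonneg hw) (mul_nonneg (Sw_nonneg hw) (eta_pos w).le)

/-- `f2` at a point is a tangent value. -/
theorem f2_eq {y : ℝ} (hy : 0 < y) : f2 y = Gw (winv y) - Sw (winv y) * y := by
  rcases le_total y (log 2) with h | h
  · have h1 := eta_winv hy h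
    unfold Gw
    rw [h1]
    unfold f2; ring
  · rw [f2_of_ge h, winv_of_ge h, Gw_zero, Sw_zero]; ring

theorem f2_antitone {y z : ℝ} (hy : 0 < y) (hyz : y ≤ z) : f2 z ≤ f2 y := by
  have hz := lt_of_lt_of_le hy hyz
  rw [f2_eq hz]
  have h1 := f2_tangent (winv_nonneg z) hy
  have h2 := Sw_nonneg (winv_nonneg z)
  nlinarith

/-! ### the perspective -/

noncomputable def F2 (P x : ℝ) : ℝ := P * f2 (x / P)

theorem F2_tangent {w0 P x : ℝ} (h0 : 0 ≤ w0) (hP : 0 < P) (hx : 0 < x) :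
    P * Gw w0 - Sw w0 * x ≤ F2 P x := by
  unfold F2
  have := f2_tangent h0 (div_pos hx hP)
  have h2 := mul_le_mul_of_nonneg_left this hP.le
  refine le_trans (le_of_eq ?_) h2
  field_simp

theorem F2_eq {P x : ℝ} (hP : 0 < P) (hx : 0 < x) :
    F2 P x = P * Gw (winv (x / P)) - Sw (winv (x / P)) * x := by
  unfold F2
  rw [f2_eq (div_pos hx hP)]
  field_simp

theorem F2_nonneg {P x : ℝ} (hP : 0 < P) (hx : 0 < x) : 0 ≤ F2 P x :=
  mul_nonneg hP.le (f2_nonneg (div_pos hx hP))

theorem F2_of_ge {P x : ℝ} (hP : 0 < P) (hx : P * log 2 ≤ x) : F2 P x = 0 := by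
  unfold F2
  rw [f2_of_ge (by rw [le_div_iff₀ hP]; linarith), mul_zero]

theorem F2_antitone_right {P x z : ℝ} (hP : 0 < P) (hx : 0 < x) (hxz : x ≤ z) :
    F2 P z ≤ F2 P x := by
  unfold F2
  gcongr
  exact f2_antitone (div_pos hx hP) (by gcongr)

theorem F2_mono_left {P Q x : ℝ} (hP : 0 < P) (hx : 0 < x) (hPQ : P ≤ Q) :
    F2 P x ≤ F2 Q x := by
  have hQ := lt_of_lt_of_le hP hPQ
  rw [F2_eq hP hx]
  have h1 := F2_tangent (winv_nonneg (x / P)) hQ hx
  have h2 := Gw_nonneg (winv_nonneg (x / P))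
  nlinarith

/-- joint midpoint convexity of `F2`. -/
theorem F2_mid {P Q x z : ℝ} (hP : 0 < P) (hQ : 0 < Q) (hx : 0 < x) (hz : 0 < z) :
    F2 ((P + Q) / 2) ((x + z) / 2) ≤ (F2 P x + F2 Q z) / 2 := by
  rw [F2_eq (by positivity) (by positivity)]
  set w := winv ((x + z) / 2 / ((P + Q) / 2))
  have hw : 0 ≤ w := winv_nonneg _
  have h1 := F2_tangent hw hP hx
  have h2 := F2_tangent hw hQ hz
  linarith

/-- general joint convexity: sublinearity. -/
theorem F2_add {P Q x z : ℝ} (hP : 0 < P) (hQ : 0 < Q) (hx : 0 < x) (hz : 0 < z) :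
    F2 (P + Q) (x + z) ≤ F2 P x + F2 Q z := by
  rw [F2_eq (by positivity) (by positivity)]
  set w := winv ((x + z) / (P + Q))
  have hw : 0 ≤ w := winv_nonneg _
  have h1 := F2_tangent hw hP hx
  have h2 := F2_tangent hw hQ hz
  linarith

theorem F2_smul {c P x : ℝ} (hc : 0 < c) : F2 (c * P) (c * x) = c * F2 P x := by
  unfold F2
  rw [mul_div_mul_left _ _ hc.ne']; ring

/-- the value of `f2` at `H θ`: `θ A θ - 2 J θ`. -/
theorem f2_H {t : ℝ} (h0 : 0 ≤ t) (h1 : t < 1) : f2 (H t) = t * A t - 2 * J t := by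
  have hm : t ∈ Ioo (-1 : ℝ) 1 := ⟨by linarith, h1⟩
  have ht := exists_tanh hm
  have hA := A_nonneg h0 h1
  have hH : H t = eta (A t) := by rw [← H_tanh, ht]
  have h3 : eta (A t) = log (2 * cosh (A t)) - A t * tanh (A t) := rfl
  have h4 : qf (A t) = 2 * log (cosh (A t)) - A t * tanh (A t) := rfl
  rw [hH, f2_eta hA]
  unfold J
  rw [hH, h3, h4, ht, log_mul (by norm_num) (cosh_pos _).ne']
  ring

/-- the Bellman function with profile `P`. -/
noncomputable def Bell (P : ℝ → ℝ) (m x : ℝ) : ℝ := 2 * (H m - x) + F2 (P m) x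

theorem Bell_zero {P : ℝ → ℝ} (hP : P 0 = 1) {t : ℝ} (h0 : 0 ≤ t) (h1 : t < 1) :
    Bell P 0 (H 0 - J t) = t * A t := by
  have hH0 : H 0 = log 2 := H_zero'
  have e : H 0 - J t = H t := by rw [hH0]; unfold J; ring
  unfold Bell F2
  rw [e, hP, div_one, f2_H h0 h1, hH0]
  unfold J
  ring

theorem Bell_self {P : ℝ → ℝ} {m : ℝ} (hP : 0 < P m) (h : P m * log 2 ≤ H m) :
    Bell P m (H m) = 0 := by
  unfold Bell
  rw [F2_of_ge hP h]; ring

end CK
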