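import Mathlib
import Vale.Agent.H7.CK.F2

/-!
# P322: key lemma K, `y^2 f2''(y) ≤ 4 L^2 / 3`
-/

open Real Set Filter Topology

namespace CK

/-! ### an exponential polynomial with nonnegative Taylor coefficients -/

/-- coefficients of `(a0+a1 t)e^{4t}+(b0+b1 t+b2 t²)e^{3t}+(c0+..+c3 t³)e^{2t}+(d0+..+d3t³)e^t
+ (e0+e1 t+e2 t²)`. -/
structure Cf where
  a0 : ℝ
  a1 : ℝ
  b0 : ℝ
  b1 : ℝ
  b2 : ℝ
  c0 : ℝ
  c1 : ℝ
  c2 : ℝ
  c3 : ℝ
  d0 : ℝ
  d1 : ℝ
  d2 : ℝ
  d3 : ℝ
  e0 : ℝ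
  e1 : ℝ
  e2 : ℝ

noncomputable def Cf.ev (c : Cf) (t : ℝ) : ℝ :=
  (c.a0 + c.a1 * t) * exp (4 * t) + (c.b0 + c.b1 * t + c.b2 * t ^ 2) * exp (3 * t)
    + (c.c0 + c.c1 * t + c.c2 * t ^ 2 + c.c3 * t ^ 3) * exp (2 * t)
    + (c.d0 + c.d1 * t + c.d2 * t ^ 2 + c.d3 * t ^ 3) * exp t
    + (c.e0 + c.e1 * t + c.e2 * t ^ 2)

def Cf.der (c : Cf) : Cf where
  a0 := 4 * c.a0 + c.a1
  a1 := 4 * c.a1
  b0 := 3 * c.b0 + c.b1
  b1 := 3 * c.b1 + 2 * c.b2
  b2 := 3 * c.b2
  c0 := 2 * c.c0 + c.c1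
  c1 := 2 * c.c1 + 2 * c.c2
  c2 := 2 * c.c2 + 3 * c.c3
  c3 := 2 * c.c3
  d0 := c.d0 + c.d1
  d1 := c.d1 + 2 * c.d2
  d2 := c.d2 + 3 * c.d3
  d3 := c.d3
  e0 := c.e1
  e1 := 2 * c.e2
  e2 := 0

theorem Cf.hasDerivAt (c : Cf) (t : ℝ) : HasDerivAt c.ev (c.der.ev t) t := by
  have hx : ∀ k : ℝ, HasDerivAt (fun s : ℝ => exp (k * s)) (k * exp (k * t)) t := by
    intro k
    have := ((hasDerivAt_id t).const_mul k).exp
    refine this.congr_deriv ?_
    simp; ring
  have h1 : HasDerivAt (fun s : ℝ => s) 1 t := hasDerivAt_id t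
  have h2 : HasDerivAt (fun s : ℝ => s ^ 2) (2 * t) t := by
    simpa using hasDerivAt_pow 2 t
  have h3 : HasDerivAt (fun s : ℝ => s ^ 3) (3 * t ^ 2) t := by
    simpa using hasDerivAt_pow 3 t
  have pa : HasDerivAt (fun s : ℝ => c.a0 + c.a1 * s) (c.a1 * 1) t :=
    (h1.const_mul c.a1).const_add c.a0
  have pb : HasDerivAt (fun s : ℝ => c.b0 + c.b1 * s + c.b2 * s ^ 2)
      (c.b1 * 1 + c.b2 * (2 * t)) t :=
    ((h1.const_mul c.b1).const_add c.b0).add (h2.const_mul c.b2)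
  have pc : HasDerivAt (fun s : ℝ => c.c0 + c.c1 * s + c.c2 * s ^ 2 + c.c3 * s ^ 3)
      (c.c1 * 1 + c.c2 * (2 * t) + c.c3 * (3 * t ^ 2)) t :=
    (((h1.const_mul c.c1).const_add c.c0).add (h2.const_mul c.c2)).add (h3.const_mul c.c3)
  have pd : HasDerivAt (fun s : ℝ => c.d0 + c.d1 * s + c.d2 * s ^ 2 + c.d3 * s ^ 3)
      (c.d1 * 1 + c.d2 * (2 * t) + c.d3 * (3 * t ^ 2)) t :=
    (((h1.const_mul c.d1).const_add c.d0).add (h2.const_mul c.d2)).add (h3.const_mul c.d3)
  have pe : HasDerivAt (fun s : ℝ => c.e0 + c.e1 * s + c.e2 * s ^ 2)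
      (c.e1 * 1 + c.e2 * (2 * t)) t :=
    ((h1.const_mul c.e1).const_add c.e0).add (h2.const_mul c.e2)
  have := ((((pa.mul (hx 4)).add (pb.mul (hx 3))).add (pc.mul (hx 2))).add
    (pd.mul (hasDerivAt_exp t))).add pe
  refine this.congr_deriv ?_
  unfold Cf.ev Cf.der
  simp only
  ring

theorem Cf.step (c : Cf) (h0 : 0 ≤ c.ev 0) (h : ∀ t, 0 ≤ t → 0 ≤ c.der.ev t) :
    ∀ t, 0 ≤ t → 0 ≤ c.ev t := by
  intro t ht
  have : MonotoneOn c.ev (Ici 0) := by
    refine monotoneOn_of_deriv_nonneg (convex_Ici 0)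
      (fun x _ => (c.hasDerivAt x).continuousAt.continuousWithinAt)
      (fun x _ => (c.hasDerivAt x).differentiableAt.differentiableWithinAt) ?_
    intro x hx
    rw [interior_Ici] at hx
    rw [(c.hasDerivAt x).deriv]
    exact h x (le_of_lt hx)
  exact h0.trans (this (by simp) (by simpa using ht) ht)

theorem Cf.ev_zero (c : Cf) : c.ev 0 = c.a0 + c.b0 + c.c0 + c.d0 + c.e0 := by
  unfold Cf.ev; simp

theorem Cf.nonneg_of (c : Cf) (ha0 : 0 ≤ c.a0) (ha1 : 0 ≤ c.a1) (hb0 : 0 ≤ c.b0) (hb1 : 0 ≤ c.b1)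
    (hb2 : 0 ≤ c.b2) (hc0 : 0 ≤ c.c0) (hc1 : 0 ≤ c.c1) (hc2 : 0 ≤ c.c2) (hc3 : 0 ≤ c.c3)
    (hd0 : 0 ≤ c.d0) (hd1 : 0 ≤ c.d1) (hd2 : 0 ≤ c.d2) (hd3 : 0 ≤ c.d3)
    (he0 : 0 ≤ c.e0) (he1 : 0 ≤ c.e1) (he2 : 0 ≤ c.e2) : ∀ t, 0 ≤ t → 0 ≤ c.ev t := by
  intro t ht
  unfold Cf.ev
  positivity

def cD : Cf where
  a0 := -18
  a1 := 6
  b0 := -21
  b1 := 4
  b2 := 6
  c0 := 15
  c1 := 32
  c2 := 24
  c3 := 12
  d0 := 21
  d1 := 38
  d2 := 28
  d3 := 8
  e0 := 3
  e1 := 4
  e2 := 2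

theorem cD_nonneg : ∀ t, 0 ≤ t → 0 ≤ cD.ev t := by
  have hk : ∀ t, 0 ≤ t → 0 ≤ cD.der.der.der.der.der.der.der.der.der.der.der.der.ev t := by
    apply Cf.nonneg_of <;> (simp only [Cf.der, cD]; norm_num)
  iterate 12 refine Cf.step _ (by rw [Cf.ev_zero]; simp only [Cf.der, cD]; norm_num) ?_
  exact hk

/-- the inequality in the variables `t`, `q = e^{-t}`. -/
theorem D_nonneg {t : ℝ} (ht : 0 ≤ t) {q : ℝ} (hq : q = exp (-t)) :
    0 ≤ (6 * t - 18) + (6 * t ^ 2 + 4 * t - 21) * q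
      + (12 * t ^ 3 + 24 * t ^ 2 + 32 * t + 15) * q ^ 2
      + (8 * t ^ 3 + 28 * t ^ 2 + 38 * t + 21) * q ^ 3 + (2 * t ^ 2 + 4 * t + 3) * q ^ 4 := by
  have h := cD_nonneg t ht
  have hqp : 0 < q := by rw [hq]; exact exp_pos _
  have h1 : exp t = 1 / q := by rw [hq, exp_neg]; field_simp
  have h2 : exp (2 * t) = 1 / q ^ 2 := by
    rw [show (2 : ℝ) * t = t + t by ring, exp_add, h1]; field_simp
  have h3 : exp (3 * t) = 1 / q ^ 3 := by
    rw [show (3 : ℝ) * t = 2 * t + t by ring, exp_add, h1, h2]; field_simp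
  have h4 : exp (4 * t) = 1 / q ^ 4 := by
    rw [show (4 : ℝ) * t = 3 * t + t by ring, exp_add, h1, h3]; field_simp
  unfold Cf.ev cD at h
  simp only at h
  rw [h1, h2, h3, h4] at h
  have h5 := mul_nonneg h (by positivity : 0 ≤ q ^ 4)
  refine h5.trans (le_of_eq ?_)
  field_simp
  ring

theorem log_one_add_le {q : ℝ} (hq : 0 ≤ q) : log (1 + q) ≤ q * (6 + q) / (6 + 4 * q) := by
  have hd : ∀ x : ℝ, 0 ≤ x → HasDerivAt (fun x => x * (6 + x) / (6 + 4 * x) - log (1 + x))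
      (4 * x ^ 3 / ((6 + 4 * x) ^ 2 * (1 + x))) x := by
    intro x hx
    have h1 : HasDerivAt (fun x : ℝ => x * (6 + x)) (1 * (6 + x) + x * 1) x :=
      (hasDerivAt_id x).mul ((hasDerivAt_id x).const_add 6)
    have h2 : HasDerivAt (fun x : ℝ => 6 + 4 * x) (4 * 1) x :=
      ((hasDerivAt_id x).const_mul 4).const_add 6
    have h3 : HasDerivAt (fun x : ℝ => log (1 + x)) (1 / (1 + x)) x :=
      ((hasDerivAt_id x).const_add 1).log (by simp; linarith)
    have hne : (6 + 4 * x) ≠ 0 := by linarith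
    have hne' : (1 + x) ≠ 0 := by linarith
    refine ((h1.div h2 hne).sub h3).congr_deriv ?_
    field_simp
    ring
  have hmono : MonotoneOn (fun x => x * (6 + x) / (6 + 4 * x) - log (1 + x)) (Ici 0) := by
    refine monotoneOn_of_deriv_nonneg (convex_Ici 0)
      (fun x hx => (hd x hx).continuousAt.continuousWithinAt)
      (fun x hx => ?_) ?_
    · rw [interior_Ici] at hx
      exact (hd x (le_of_lt hx)).differentiableAt.differentiableWithinAt
    · intro x hx
      rw [interior_Ici] at hx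
      have hx' : 0 < x := hx
      rw [(hd x hx'.le).deriv]
      positivity
  have := hmono (by simp) (by simpa using hq) hq
  simp only [zero_mul, zero_div, add_zero, log_one, sub_zero] at this
  linarith

noncomputable def N1 (w : ℝ) : ℝ := 2 * w * cosh (2 * w) - sinh (2 * w)

theorem N1_hasDerivAt (w : ℝ) : HasDerivAt N1 (4 * w * sinh (2 * w)) w := by
  have h2 : HasDerivAt (fun x : ℝ => 2 * x) (2 * 1) w := (hasDerivAt_id w).const_mul 2
  have hc : HasDerivAt (fun x : ℝ => cosh (2 * x)) (sinh (2 * w) * (2 * 1)) w := h2.cosh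
  have hs : HasDerivAt (fun x : ℝ => sinh (2 * x)) (cosh (2 * w) * (2 * 1)) w := h2.sinh
  refine ((h2.mul hc).sub hs).congr_deriv ?_
  ring

theorem N1_nonneg {w : ℝ} (hw : 0 ≤ w) : 0 ≤ N1 w := by
  have : MonotoneOn N1 (Ici 0) := by
    refine monotoneOn_of_deriv_nonneg (convex_Ici 0)
      (fun x _ => (N1_hasDerivAt x).continuousAt.continuousWithinAt)
      (fun x _ => (N1_hasDerivAt x).differentiableAt.differentiableWithinAt) ?_
    intro x hx
    rw [interior_Ici] at hx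
    have hx' : 0 < x := hx
    rw [(N1_hasDerivAt x).deriv]
    have : 0 ≤ sinh (2 * x) := sinh_nonneg_iff.2 (by linarith)
    positivity
  have h := this (by simp) (by simpa using hw) hw
  have h0 : N1 0 = 0 := by simp [N1]
  linarith

/-- The key sign for the derivative of `b`. -/
theorem key_sign {w : ℝ} (hw : 0 < w) :
    eta w * (w * sinh (2 * w) * N1 w + cosh w ^ 2 * (4 * w ^ 2 * sinh (2 * w) - 3 * N1 w))
      ≤ 2 * w ^ 2 * N1 w := by
  set q := exp (-(2 * w)) with hq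
  have hqp : 0 < q := exp_pos _
  set t := 2 * w with ht
  have htp : 0 < t := by positivity
  have hN := N1_nonneg hw.le
  have he1 : exp t = 1 / q := by rw [hq, exp_neg]; field_simp
  have hs : sinh t = (1 - q ^ 2) / (2 * q) := by
    rw [sinh_eq, he1, ← hq]; field_simp
  have hc : cosh t = (1 + q ^ 2) / (2 * q) := by
    rw [cosh_eq, he1, ← hq]; field_simp
  have hcc : cosh w ^ 2 = (1 + q) ^ 2 / (4 * q) := by
    have : cosh t = 2 * cosh w ^ 2 - 1 := by rw [ht, cosh_two_mul, sinh_sq]; ring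
    rw [hc] at this
    have h3 : cosh w ^ 2 = ((1 + q ^ 2) / (2 * q) + 1) / 2 := by linarith
    rw [h3]; field_simp; ring
  have hN1 : N1 w = (t * (1 + q ^ 2) - (1 - q ^ 2)) / (2 * q) := by
    unfold N1; rw [← ht, hs, hc]; field_simp
  have hlc : log (2 * cosh w) = w + log (1 + q) := by
    have : 2 * cosh w = exp w * (1 + q) := by
      rw [cosh_eq, hq, mul_add, ← exp_add, ht]
      rw [show w + -(2 * w) = -w by ring]; ring
    rw [this, log_mul (exp_pos _).ne' (by positivity), log_exp]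
  have hth : tanh w = (1 - q) / (1 + q) := by
    have hx : tanh w = sinh (2 * w) / (2 * cosh w ^ 2) := by
      rw [sinh_two_mul, tanh_eq_sinh_div_cosh]
      have := (cosh_pos w).ne'
      field_simp
    rw [hx, ← ht, hs, hcc]
    field_simp
    ring
  have heta : eta w = log (1 + q) + t * q / (1 + q) := by
    unfold eta
    rw [hlc, hth, ht]
    field_simp
    ring
  set v := log (1 + q) with hv
  have hvpos : 0 < v := log_pos (by linarith)
  have hvle := log_one_add_le hqp.le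
  rw [← hv] at hvle
  have hD := D_nonneg htp.le hq
  have hNN : 0 ≤ t * (1 + q ^ 2) - (1 - q ^ 2) := by
    have := hN1 ▸ hN
    by_contra hcon
    push Not at hcon
    have : (t * (1 + q ^ 2) - (1 - q ^ 2)) / (2 * q) < 0 := div_neg_of_neg_of_pos hcon (by positivity)
    linarith
  rw [heta, hs, hcc, hN1, show (4 : ℝ) * w ^ 2 = t ^ 2 by rw [ht]; ring,
    show (2 : ℝ) * w ^ 2 = t ^ 2 / 2 by rw [ht]; ring, show w = t / 2 by rw [ht]; ring]
  set N := t * (1 + q ^ 2) - (1 - q ^ 2) with hNdef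
  -- E = 3N - t N'
  set E := 2 * t - 3 + q ^ 2 * (3 + 4 * t + 2 * t ^ 2) with hE
  -- D says: ((1+q)(6+q) + t(6+4q)) E ≥ 2 t (6+q) N
  have hD' : 2 * t * (6 + q) * N ≤ ((1 + q) * (6 + q) + t * (6 + 4 * q)) * E := by
    have : ((1 + q) * (6 + q) + t * (6 + 4 * q)) * E - 2 * t * (6 + q) * N
      = (6 * t - 18) + (6 * t ^ 2 + 4 * t - 21) * q
      + (12 * t ^ 3 + 24 * t ^ 2 + 32 * t + 15) * q ^ 2
      + (8 * t ^ 3 + 28 * t ^ 2 + 38 * t + 21) * q ^ 3 + (2 * t ^ 2 + 4 * t + 3) * q ^ 4 := by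
      rw [hE, hNdef]; ring
    linarith
  have hE0 : 0 ≤ E := by
    by_contra hcon
    push Not at hcon
    have h1 : 0 ≤ 2 * t * (6 + q) * N := by positivity
    have h2 : ((1 + q) * (6 + q) + t * (6 + 4 * q)) * E < 0 :=
      mul_neg_of_pos_of_neg (by positivity) hcon
    linarith
  -- the claim for v
  have hclaim : 2 * v * t * N ≤ ((1 + q) * v + t * q) * E := by
    -- affine in v
    have hb : v * (6 + 4 * q) ≤ q * (6 + q) := by
      rw [le_div_iff₀ (by positivity)] at hvle; exact hvle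
    have h1 : v * (2 * t * (6 + q) * N) ≤ v * (((1 + q) * (6 + q) + t * (6 + 4 * q)) * E) :=
      mul_le_mul_of_nonneg_left hD' hvpos.le
    have h2 : v * (6 + 4 * q) * (t * E) ≤ q * (6 + q) * (t * E) :=
      mul_le_mul_of_nonneg_right hb (by positivity)
    have h3 : (6 + q) * (2 * v * t * N) ≤ (6 + q) * (((1 + q) * v + t * q) * E) := by
      nlinarith
    exact le_of_mul_le_mul_left h3 (by positivity)
  have hkey : (t ^ 2 / 2 * (N / (2 * q)) - (v + t * q / (1 + q)) *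
      (t / 2 * ((1 - q ^ 2) / (2 * q)) * (N / (2 * q)) + (1 + q) ^ 2 / (4 * q) *
        (t ^ 2 * ((1 - q ^ 2) / (2 * q)) - 3 * (N / (2 * q))))) * (8 * q ^ 2)
      = (1 + q) * (((1 + q) * v + t * q) * E - 2 * v * t * N) := by
    rw [hE, hNdef]
    field_simp
    ring
  have h5 : 0 ≤ (1 + q) * (((1 + q) * v + t * q) * E - 2 * v * t * N) :=
    mul_nonneg (by positivity) (by linarith)
  rw [← hkey] at h5
  have h6 := nonneg_of_mul_nonneg_left h5 (by positivity)
  linarith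


/-- `y² f2''(y)` at `y = eta w`. -/
noncomputable def bb (w : ℝ) : ℝ := eta w ^ 2 * cosh w ^ 2 * N1 w / (2 * w ^ 3)

theorem bb_hasDerivAt {w : ℝ} (hw : 0 < w) :
    HasDerivAt bb (eta w / (2 * w ^ 4) *
      (eta w * (w * sinh (2 * w) * N1 w + cosh w ^ 2 * (4 * w ^ 2 * sinh (2 * w) - 3 * N1 w))
        - 2 * w ^ 2 * N1 w)) w := by
  have hc := (cosh_pos w).ne'
  have h1 : HasDerivAt (fun x => eta x ^ 2) (2 * eta w * (-(w / cosh w ^ 2))) w := by
    have := (eta_hasDerivAt w).pow 2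
    refine this.congr_deriv ?_
    simp
  have h2 : HasDerivAt (fun x => cosh x ^ 2) (2 * cosh w * sinh w) w := by
    have := (hasDerivAt_cosh w).pow 2
    refine this.congr_deriv ?_
    simp
  have h3 : HasDerivAt (fun x : ℝ => 2 * x ^ 3) (2 * (3 * w ^ 2)) w := by
    have : HasDerivAt (fun s : ℝ => s ^ 3) (3 * w ^ 2) w := by
      simpa using hasDerivAt_pow 3 w
    exact this.const_mul 2
  have h4 := ((h1.mul h2).mul (N1_hasDerivAt w)).div h3 (by positivity)
  refine h4.congr_deriv ?_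
  simp only [Pi.mul_apply]
  rw [sinh_two_mul]
  field_simp
  ring

theorem bb_anti : AntitoneOn bb (Ioi 0) := by
  refine antitoneOn_of_deriv_nonpos (convex_Ioi 0)
    (fun x hx => (bb_hasDerivAt hx).continuousAt.continuousWithinAt)
    (fun x hx => ?_) ?_
  · rw [interior_Ioi] at hx
    exact (bb_hasDerivAt hx).differentiableAt.differentiableWithinAt
  · intro x hx
    rw [interior_Ioi] at hx
    have hx' : 0 < x := hx
    rw [(bb_hasDerivAt hx).deriv]
    have h1 := key_sign hx'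
    have h2 : 0 ≤ eta x / (2 * x ^ 4) := div_nonneg (eta_pos x).le (by positivity)
    nlinarith

/-- `N1 w ≤ (8/3) w³ cosh (2w)`. -/
theorem N1_le {w : ℝ} (hw : 0 ≤ w) : N1 w ≤ 8 / 3 * w ^ 3 * cosh (2 * w) := by
  have hd : ∀ x : ℝ, HasDerivAt (fun x : ℝ => 8 / 3 * x ^ 3 * cosh (2 * x) - N1 x)
      (8 * x ^ 2 * cosh (2 * x) + 8 / 3 * x ^ 3 * (2 * sinh (2 * x)) - 4 * x * sinh (2 * x)) x := by
    intro x
    have h2 : HasDerivAt (fun x : ℝ => 2 * x) (2 * 1) x := (hasDerivAt_id x).const_mul 2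
    have hc : HasDerivAt (fun x : ℝ => cosh (2 * x)) (sinh (2 * x) * (2 * 1)) x := h2.cosh
    have h3 : HasDerivAt (fun s : ℝ => 8 / 3 * s ^ 3) (8 / 3 * (3 * x ^ 2)) x := by
      have : HasDerivAt (fun s : ℝ => s ^ 3) (3 * x ^ 2) x := by simpa using hasDerivAt_pow 3 x
      exact this.const_mul _
    refine ((h3.mul hc).sub (N1_hasDerivAt x)).congr_deriv ?_
    ring
  have hmono : MonotoneOn (fun x : ℝ => 8 / 3 * x ^ 3 * cosh (2 * x) - N1 x) (Ici 0) := by
    refine monotoneOn_of_deriv_nonneg (convex_Ici 0)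
      (fun x _ => (hd x).continuousAt.continuousWithinAt)
      (fun x _ => (hd x).differentiableAt.differentiableWithinAt) ?_
    intro x hx
    rw [interior_Ici] at hx
    have hx' : 0 < x := hx
    rw [(hd x).deriv]
    -- N1 ≥ 0 gives 2x cosh 2x ≥ sinh 2x
    have h1 := N1_nonneg hx'.le
    unfold N1 at h1
    have h2 : 0 ≤ sinh (2 * x) := sinh_nonneg_iff.2 (by linarith)
    have h3 : 0 ≤ 8 / 3 * x ^ 3 * (2 * sinh (2 * x)) := by positivity
    nlinarith
  have := hmono (by simp) (by simpa using hw) hw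
  simp only [N1, mul_zero, cosh_zero, sinh_zero, sub_zero] at this
  have h0 : N1 w = 2 * w * cosh (2 * w) - sinh (2 * w) := rfl
  rw [h0]
  norm_num at this
  linarith

/-- The constant `kap = 4 L² / 3`. -/
noncomputable def kapK : ℝ := 4 / 3 * log 2 ^ 2

/-- **Key lemma K.** -/
theorem bb_le {w : ℝ} (hw : 0 < w) : bb w ≤ kapK := by
  have h1 : ∀ e ∈ Ioo 0 w, bb w ≤ log 2 ^ 2 * cosh e ^ 2 * (4 / 3 * cosh (2 * e)) := by
    intro e he
    have he0 : 0 < e := he.1
    have h2 := bb_anti (mem_Ioi.2 he0) (mem_Ioi.2 hw) he.2.le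
    refine h2.trans ?_
    unfold bb
    rw [div_le_iff₀ (by positivity)]
    have h3 := N1_le he0.le
    have h4 := eta_le e
    have h5 := eta_pos e
    have h6 := N1_nonneg he0.le
    have h7 : eta e ^ 2 ≤ log 2 ^ 2 := by gcongr
    calc eta e ^ 2 * cosh e ^ 2 * N1 e ≤ log 2 ^ 2 * cosh e ^ 2 * (8 / 3 * e ^ 3 * cosh (2 * e)) := by
          gcongr
      _ = _ := by ring
  have hcont : Tendsto (fun e : ℝ => log 2 ^ 2 * cosh e ^ 2 * (4 / 3 * cosh (2 * e)))
      (𝓝[>] 0) (𝓝 (log 2 ^ 2 * cosh 0 ^ 2 * (4 / 3 * cosh (2 * 0)))) := by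
    have : Continuous (fun e : ℝ => log 2 ^ 2 * cosh e ^ 2 * (4 / 3 * cosh (2 * e))) := by
      fun_prop
    exact (this.tendsto 0).mono_left nhdsWithin_le_nhds
  have h3 := ge_of_tendsto hcont (by
    filter_upwards [Ioo_mem_nhdsGT hw] with e he using h1 e he)
  refine h3.trans (le_of_eq ?_)
  unfold kapK
  simp
  ring

theorem kapK_pos : 0 < kapK := by
  unfold kapK
  have := log_pos (show (1 : ℝ) < 2 by norm_num)
  positivity

theorem kapK_le : kapK ≤ 0.6407 := by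
  unfold kapK
  have h1 := log_two_lt_d9
  have h2 := log_two_gt_d9
  nlinarith

theorem Sw_hasDerivAt {w : ℝ} (hw : 0 < w) : HasDerivAt Sw (N1 w / (2 * w ^ 2)) w := by
  have h2 : HasDerivAt (fun x : ℝ => 2 * x) (2 * 1) w := (hasDerivAt_id w).const_mul 2
  have hs : HasDerivAt (fun x : ℝ => sinh (2 * x)) (cosh (2 * w) * (2 * 1)) w := h2.sinh
  have h3 : HasDerivAt (fun x : ℝ => sinh (2 * x) / (2 * x) - 1) (N1 w / (2 * w ^ 2)) w := by
    refine ((hs.div h2 (by positivity)).sub_const 1).congr_deriv ?_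
    unfold N1
    field_simp
  refine h3.congr_of_eventuallyEq ?_
  filter_upwards [lt_mem_nhds hw] with x hx
  unfold Sw
  rw [if_neg hx.ne']

theorem Gw_hasDerivAt {w : ℝ} (hw : 0 < w) : HasDerivAt Gw (N1 w / (2 * w ^ 2) * eta w) w := by
  have := (qf_hasDerivAt w).add ((Sw_hasDerivAt hw).mul (eta_hasDerivAt w))
  refine this.congr_deriv ?_
  have h := Sw_mul (w := w)
  have hc := (cosh_pos w).ne'
  have h2 : Sw w * -(w / cosh w ^ 2) = -((sinh w * cosh w - w) / cosh w ^ 2) := by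
    rw [← h]; ring
  rw [h2]; ring

theorem Sw_continuous : Continuous Sw := by
  have h : Sw = fun w => dslope sinh 0 (2 * w) - 1 := by
    funext w
    unfold Sw
    split_ifs with h
    · rw [h, mul_zero, dslope_same, Real.deriv_sinh, cosh_zero]; ring
    · rw [dslope_of_ne _ (by simpa using h), slope_def_field, sinh_zero]
      simp
  rw [h]
  have : Continuous (dslope sinh 0) := by
    rw [continuous_iff_continuousAt]
    intro x
    by_cases hx : x = 0
    · rw [hx]; exact continuousAt_dslope_same.2 differentiableAt_sinh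
    · exact (continuousAt_dslope_of_ne hx).2 continuous_sinh.continuousAt
  exact (this.comp (continuous_const.mul continuous_id)).sub continuous_const

theorem eta_continuous : Continuous eta :=
  continuous_iff_continuousAt.2 fun x => (eta_hasDerivAt x).continuousAt

theorem qf_continuous : Continuous qf :=
  continuous_iff_continuousAt.2 fun x => (qf_hasDerivAt x).continuousAt

theorem Gw_continuous : Continuous Gw :=
  qf_continuous.add (Sw_continuous.mul eta_continuous)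

/-- `Gw + κ log eta` is antitone on `[0,∞)`. -/
theorem Gw_log_anti : AntitoneOn (fun w => Gw w + kapK * log (eta w)) (Ici 0) := by
  have hd : ∀ x : ℝ, 0 < x → HasDerivAt (fun w => Gw w + kapK * log (eta w))
      (N1 x / (2 * x ^ 2) * eta x + kapK * (-(x / cosh x ^ 2) / eta x)) x := by
    intro x hx
    exact (Gw_hasDerivAt hx).add (((eta_hasDerivAt x).log (eta_pos x).ne').const_mul kapK)
  refine antitoneOn_of_deriv_nonpos (convex_Ici 0) ?_ ?_ ?_
  · refine (Gw_continuous.add (continuous_const.mul ?_)).continuousOn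
    exact eta_continuous.log (fun x => (eta_pos x).ne')
  · intro x hx
    rw [interior_Ici] at hx
    exact (hd x hx).differentiableAt.differentiableWithinAt
  · intro x hx
    rw [interior_Ici] at hx
    have hx' : 0 < x := hx
    rw [(hd x hx').deriv]
    have h1 := bb_le hx'
    unfold bb at h1
    rw [div_le_iff₀ (by positivity)] at h1
    have he := eta_pos x
    have hc : 0 < cosh x := cosh_pos x
    have e1 : N1 x / (2 * x ^ 2) * eta x + kapK * (-(x / cosh x ^ 2) / eta x)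
      = (eta x ^ 2 * cosh x ^ 2 * N1 x - kapK * (2 * x ^ 3)) / (2 * x ^ 2 * cosh x ^ 2 * eta x) := by
      field_simp
      ring
    rw [e1]
    exact div_nonpos_of_nonpos_of_nonneg (by linarith) (by positivity)

theorem Gw_mono {a b : ℝ} (ha : 0 ≤ a) (hab : a ≤ b) : Gw a ≤ Gw b := by
  have : MonotoneOn Gw (Ici 0) := by
    refine monotoneOn_of_deriv_nonneg (convex_Ici 0) Gw_continuous.continuousOn ?_ ?_
    · intro x hx
      rw [interior_Ici] at hx
      exact (Gw_hasDerivAt hx).differentiableAt.differentiableWithinAt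
    · intro x hx
      rw [interior_Ici] at hx
      have hx' : 0 < x := hx
      rw [(Gw_hasDerivAt hx).deriv]
      have h1 := N1_nonneg hx'.le
      have h2 := eta_pos x
      positivity
  exact this ha (ha.trans hab) hab

theorem Gw_diff {a b : ℝ} (ha : 0 ≤ a) (hab : a ≤ b) :
    Gw b - Gw a ≤ kapK * log (eta a / eta b) := by
  have h := Gw_log_anti (mem_Ici.2 ha) (mem_Ici.2 (ha.trans hab)) hab
  simp only at h
  rw [log_div (eta_pos a).ne' (eta_pos b).ne']
  linarith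

/-- `g y = f2 y - y f2' y`, i.e. `∂F2/∂P` at `y = x/P`; it is `0` for `y ≥ log 2`. -/
noncomputable def gg (y : ℝ) : ℝ := Gw (winv y)

theorem gg_nonneg (y : ℝ) : 0 ≤ gg y := Gw_nonneg (winv_nonneg y)

theorem gg_of_ge {y : ℝ} (h : log 2 ≤ y) : gg y = 0 := by
  unfold gg; rw [winv_of_ge h, Gw_zero]

theorem winv_anti {y z : ℝ} (hy : 0 < y) (hyz : y ≤ z) : winv z ≤ winv y := by
  rcases le_total (log 2) z with h | h
  · rw [winv_of_ge h]; exact winv_nonneg y
  · by_contra hcon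
    push Not at hcon
    have h1 := eta_strictAntiOn (winv_nonneg y) (winv_nonneg z) hcon
    rw [eta_winv hy (hyz.trans h), eta_winv (lt_of_lt_of_le hy hyz) h] at h1
    linarith

theorem gg_anti {y z : ℝ} (hy : 0 < y) (hyz : y ≤ z) : gg z ≤ gg y :=
  Gw_mono (winv_nonneg z) (winv_anti hy hyz)

/-- **Key lemma K, logarithmic form.** -/
theorem gg_diff {y z : ℝ} (hy : 0 < y) (hyz : y ≤ z) : gg y - gg z ≤ kapK * log (z / y) := by
  have hz := lt_of_lt_of_le hy hyz
  have hk := kapK_pos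
  rcases le_total z (log 2) with h | h
  · have h1 := Gw_diff (winv_nonneg z) (winv_anti hy hyz)
    rw [eta_winv hz h, eta_winv hy (hyz.trans h)] at h1
    exact h1
  · rw [gg_of_ge h, sub_zero]
    rcases le_total y (log 2) with h' | h'
    · have h1 := Gw_diff (le_refl (0 : ℝ)) (winv_nonneg y)
      rw [Gw_zero, sub_zero, eta_zero, eta_winv hy h'] at h1
      refine h1.trans ?_
      gcongr
    · rw [gg_of_ge h']
      exact mul_nonneg hk.le (log_nonneg (by rw [le_div_iff₀ hy]; linarith))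

theorem gg_diff_PQ {P Q x : ℝ} (hx : 0 < x) (hQ : 0 < Q) (hPQ : Q ≤ P) :
    gg (x / P) - gg (x / Q) ≤ kapK * log (P / Q) := by
  have hP := lt_of_lt_of_le hQ hPQ
  have h := gg_diff (div_pos hx hP) (show x / P ≤ x / Q by gcongr)
  have e : x / Q / (x / P) = P / Q := by field_simp
  rwa [e] at h

/-- `∂F2/∂P = gg (x/P)`: two-sided secant bounds. -/
theorem F2_sub_le {P Q x : ℝ} (hx : 0 < x) (hQ : 0 < Q) (hP : 0 < P) :
    F2 P x - F2 Q x ≤ (P - Q) * gg (x / P) := by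
  rw [F2_eq hP hx]
  have := F2_tangent (winv_nonneg (x / P)) hQ hx
  unfold gg
  linarith

end CK
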